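import Vale.Agent.P088.R2.H338.C.Tub
import Vale.Agent.P088.R2.H205.C.SpecW
import Vale.Agent.P088.R2.H509.EP.Lit

/-!
# P088, stage 3, zone C: the tubes in region I, specification

`rx`: cut-off of `{|W0_x| ≤ 4 rT NG} ∩ {|q| ≥ c₀ / 4}`, equal to `1` on
`{|W0_x| ≤ 2 rT NG} ∩ {|q|² ≥ c₀² / 8}`; `ry` its mirror image; `Na = Φ'(l(x) + l(y))`.
-/

open Set Filter MeasureTheory
open scoped ContDiff Topology

noncomputable section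

namespace Vale.Agent.P088.R2.H338.TC

open Vale.Agent.P088.LR Vale.Agent.P088.HY
open Vale.Agent.P088.R2.H644 Vale.Agent.P088.R2.H961.GW
open Vale.Agent.P088.R2.H31.EP
open Vale.Agent.P088.R2.H205.CP (OI nuL)

variable {n : ℕ}

/-- `Φ'(l(x) + l(y))`. -/
def Na (d : Pk n) (z : VV n) : ℝ := deriv d.Φ (d.u0 z)

/-- `0` for `|q| ≤ c₀ / 4`, `1` for `|q|² ≥ c₀² / 8`. -/
def rr (q : Cst) (z : VV n) : ℝ := Real.smoothTransition (16 * Vale.Agent.P088.R2.H31.EP.qq z / q.c₀ ^ 2 - 1)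

/-- The cut-off of the tube `W_x = 0`. -/
def rx (q : Cst) (d : Pk n) (z : VV n) : ℝ :=
  rr q z * Real.smoothTransition (1 - d.tx q (4 * q.rT) z)

/-- The cut-off of the tube `W_y = 0`. -/
def ry (q : Cst) (d : Pk n) (z : VV n) : ℝ :=
  rr q z * Real.smoothTransition (1 - d.ty q (4 * q.rT) z)

/-- The facts at a point of the tubes. -/
structure TF (A : ℝ) (q : Cst) (d : Pk n) (z : VV n) : Prop where
  N0 : q.M₀ ≤ Na d z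
  EN : Na d z ≤ 16 * q.c₀ * d.E q z
  NE : d.E q z ≤ A * Na d z
  mN : d.m q z ≤ 16 * q.c₀ * Na d z
  KN : Na d z ≤ 2 * d.Kf q z
  NN : d.N q z = Na d z
  wx : ∀ i, |dx i (d.W q) z| ≤ A * Na d z
  wy : ∀ i, |dy i (d.W q) z| ≤ A * Na d z
  wxx : ∀ i j, |dx i (dx j (d.W q)) z| ≤ A * Na d z
  wyy : ∀ i j, |dy i (dy j (d.W q)) z| ≤ A * Na d z
  nx : ∀ i, |dx i (Na d) z| ≤ A * Na d z
  ny : ∀ i, |dy i (Na d) z| ≤ A * Na d z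
  ν1 : ∑ i, nuL d i z ^ 2 ≤ 1
  νx : ∀ i j, |dx i (nuL d j) z| ≤ 1
  νy : ∀ i j, |dy i (nuL d j) z| ≤ 1
  ρxx : ∀ i, |dx i (rx q d) z| ≤ A
  ρxy : ∀ i, |dy i (rx q d) z| ≤ A
  ρyx : ∀ i, |dx i (ry q d) z| ≤ A
  ρyy : ∀ i, |dy i (ry q d) z| ≤ A
  /-- the other slot -/
  vx : rx q d z ≠ 0 → Na d z / 8 ≤ |∑ i, nuL d i z * dy i (d.W q) z|
  vy : ry q d z ≠ 0 → Na d z / 8 ≤ |∑ i, nuL d i z * dx i (d.W q) z|

/-- **Row TF** (helper680). -/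
def RowTF : Prop := ∀ n : ℕ, 3 ≤ n → ∃ A : ℝ, 1 ≤ A ∧ EvC fun q => ∀ d : Pk n, PkOk q d →
  ∀ z ∈ OI q d, d.u q z ≤ d.utb q → rx q d z ≠ 0 ∨ ry q d z ≠ 0 → TF (A / (q.c₀ * q.rT)) q d z

end Vale.Agent.P088.R2.H338.TC
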