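import Vale.Agent.P088.R2.H338.C.ZJ
import Vale.Agent.P088.R2.H205.C.ZSup

/-!
# P088, stage 3, zone C: region I with the tube letters, the theorem
-/

open Set Filter MeasureTheory
open scoped ContDiff Topology

noncomputable section

namespace Vale.Agent.P088.R2.H338.TC

open Vale.Agent.P088.LR Vale.Agent.P088.HY
open Vale.Agent.P088.R2.H961.GW Vale.Agent.P088.R2.H551.E
open Vale.Agent.P088.R2.H31.EP Vale.Agent.P088.R2.H165
open Vale.Agent.P088.R2.H205.CP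
open Vale.Agent.P088.R2.H338.C
open Vale.Agent.P088.R2.H86.Z (El)

variable {n : ℕ}

/-- The conditions on `M₀`. -/
structure MOk (n : ℕ) (A₀ c c₁ t₀ : ℝ) (q : Cst) : Prop where
  a : 1536 * (n : ℝ) ^ 2 * (A₀ / (q.c₀ * q.rT)) ≤ q.M₀
  b : 4 * (t₀ * (q.c₀ * q.rT) ^ 2) ≤ c / 32 * q.M₀
  c : 6 * (A₀ / (q.c₀ * q.rT)) * (64 * c₁ * (n : ℝ) ^ 2 * (A₀ / (q.c₀ * q.rT)) ^ 2 +
    2560 * n * (t₀ * (q.c₀ * q.rT) ^ 2) * (A₀ / (q.c₀ * q.rT)) ^ 2) ≤ c * q.M₀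
  c0 : 0 < q.c₀ ∧ q.c₀ ≤ 1 / 16
  rT : 0 < q.rT ∧ q.rT ≤ 1
  M : 1 ≤ q.M₀
  ε : q.ε ≤ 1
  R : 1 ≤ q.R

theorem ev_MOk (n : ℕ) {A₀ c c₁ t₀ : ℝ} (hc : 0 < c) : EvC fun q => MOk n A₀ c c₁ t₀ q := by
  have e1 := EvC.at_c₀ (fun _ t => 0 < t ∧ t ≤ 1 / 16) fun _ =>
    ev_sml (by norm_num : (0 : ℝ) < 1 / 16) fun t h1 h2 => ⟨h1, h2⟩
  have e2 := EvC.at_rT (fun _ t => 0 < t ∧ t ≤ 1) fun _ =>
    ev_sml (by norm_num : (0 : ℝ) < 1) fun t h1 h2 => ⟨h1, h2⟩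
  have e3 := EvC.at_ε (fun _ t => t ≤ 1) fun _ =>
    ev_sml (by norm_num : (0 : ℝ) < 1) fun t h1 h2 => h2
  have ev : ∀ x y : ℝ, 0 < y → ∀ᶠ N in atTop, x ≤ y * N := fun x y hy =>
    (tendsto_id.const_mul_atTop hy).eventually_ge_atTop x
  have e4 := EvC.at_M₀ (fun q t => 1536 * (n : ℝ) ^ 2 * (A₀ / (q.c₀ * q.rT)) ≤ t ∧
    4 * (t₀ * (q.c₀ * q.rT) ^ 2) ≤ c / 32 * t ∧
    6 * (A₀ / (q.c₀ * q.rT)) * (64 * c₁ * (n : ℝ) ^ 2 * (A₀ / (q.c₀ * q.rT)) ^ 2 +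
    2560 * n * (t₀ * (q.c₀ * q.rT) ^ 2) * (A₀ / (q.c₀ * q.rT)) ^ 2) ≤ c * t) fun q => by
    filter_upwards [eventually_ge_atTop (1536 * (n : ℝ) ^ 2 * (A₀ / (q.c₀ * q.rT))),
      ev (4 * (t₀ * (q.c₀ * q.rT) ^ 2)) (c / 32) (by positivity),
      ev (6 * (A₀ / (q.c₀ * q.rT)) * (64 * c₁ * (n : ℝ) ^ 2 * (A₀ / (q.c₀ * q.rT)) ^ 2 +
        2560 * n * (t₀ * (q.c₀ * q.rT) ^ 2) * (A₀ / (q.c₀ * q.rT)) ^ 2)) c hc] with t h1 h2 h3
    exact ⟨h1, h2, h3⟩
  refine ((((e1.and e2).and e3).and e4).and EvC.pos).mono ?_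
  rintro q ⟨⟨⟨⟨h1, h2⟩, h3⟩, h4⟩, h5⟩
  exact ⟨h4.1, h4.2.1, h4.2.2, h1, h2, h5.2.2.1, h3, h5.2.2.2.2.2.2.2⟩

/-- **Region I with the tube letters**, for any cut-off supported in `OI`. -/
theorem zI_tube (hAI : RowAI') (hCM : RowCM) (hEN : RowEN) (hCW : RowCW) (hPW : RowPW)
    (hRF : RowRF) (hTF : RowTF) : ∀ n : ℕ, 3 ≤ n → ∃ c C c₁ t₀ : ℝ, 0 < c ∧ 0 < C ∧ 0 < c₁ ∧
    0 < t₀ ∧ EvC fun q => ∀ d : Pk n, PkOk q d → ∀ t : Tab.Nu (VV n), NuOk q d t →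
      ∀ χ : VV n → ℝ, ContDiff ℝ ∞ χ → tsupport χ ⊆ OI q d →
      d.Zone q χ ((mgZI q d t c (t₀ * (q.c₀ * q.rT) ^ 2)).sm fun z => χ z ^ 2)
        (coZI q d t C c₁ (t₀ * (q.c₀ * q.rT) ^ 2) χ) := by
  intro n hn
  obtain ⟨c, C, hc, hC, H⟩ := zI_T hAI hCM hEN hCW hPW hRF n hn
  obtain ⟨A₀, hA₀, HT⟩ := hTF n hn
  have hn0 : (0 : ℝ) < n := by
    have : 0 < n := by omega
    exact_mod_cast this
  have hn1 : (1 : ℝ) ≤ n := by
    have : 1 ≤ n := by omega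
    exact_mod_cast this
  obtain ⟨c₁, hc1⟩ : ∃ c₁, c₁ = c / 8 := ⟨_, rfl⟩
  obtain ⟨t₀, ht0⟩ : ∃ t₀, t₀ = min (c₁ / (184320 * n * A₀ ^ 2)) (c / (12 * A₀)) := ⟨_, rfl⟩
  have pc1 : 0 < c₁ := by rw [hc1]; positivity
  have pA0 : 0 < A₀ := by linarith
  have pt0 : 0 < t₀ := by
    rw [ht0]
    exact lt_min (by positivity) (by positivity)
  have qt1 : 184320 * n * A₀ ^ 2 * t₀ ≤ c₁ := by
    have h : t₀ ≤ c₁ / (184320 * n * A₀ ^ 2) := by rw [ht0]; exact min_le_left _ _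
    rw [le_div_iff₀ (by positivity)] at h
    linarith
  have qt2 : 12 * A₀ * t₀ ≤ c := by
    have h : t₀ ≤ c / (12 * A₀) := by rw [ht0]; exact min_le_right _ _
    rw [le_div_iff₀ (by positivity)] at h
    linarith
  refine ⟨c, C, c₁, t₀, hc, hC, pc1, pt0, ?_⟩
  have E1 := ((H.and HT).and ((EvC.litSm n).and EvC.rad)).and
    (ev_MOk n (A₀ := A₀) (c₁ := c₁) (t₀ := t₀) hc)
  refine E1.mono ?_
  rintro q ⟨⟨⟨H, HT⟩, hL, hr⟩, M⟩ d hd t ht χ sχ hχ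
  obtain ⟨hs, HK⟩ := H d hd
  have L := hL d hd
  have HK := HK t ht χ sχ hχ
  have HT := HT d hd
  obtain ⟨Bx, By⟩ := pk_B hd M.ε M.R
  obtain ⟨c0p, c0l⟩ := M.c0
  obtain ⟨rTp, rTl⟩ := M.rT
  have X0 : 0 < q.c₀ * q.rT := by positivity
  have X1 : q.c₀ * q.rT ≤ 1 := by nlinarith
  obtain ⟨A, hA⟩ : ∃ A, A = A₀ / (q.c₀ * q.rT) := ⟨_, rfl⟩
  obtain ⟨cT, hcT⟩ : ∃ cT, cT = t₀ * (q.c₀ * q.rT) ^ 2 := ⟨_, rfl⟩
  have Ma := M.a
  have Mb := M.b
  have Mc := M.c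
  rw [← hA] at Ma HT
  rw [← hcT] at Mb
  rw [← hA, ← hcT] at Mc
  rw [← hcT]
  have hA1 : 1 ≤ A := by
    rw [hA, le_div_iff₀ X0]
    linarith
  have pcT : 0 < cT := by rw [hcT]; positivity
  have hcc : 46080 * (n : ℝ) * A ^ 2 * (4 * cT) ≤ c₁ := by
    have e : 46080 * (n : ℝ) * A ^ 2 * (4 * cT) = 184320 * n * A₀ ^ 2 * t₀ := by
      rw [hA, hcT]
      field_simp
      ring
    rw [e]
    exact qt1
  -- continuity
  have cE : Continuous (d.E q) := hs.sE.continuous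
  have cN : Continuous (d.N q) := hd.Φ's.continuous.comp L.u.continuous
  have cm : Continuous (d.m q) := cE.mul (continuous_const.mul L.rq.continuous)
  have E0 : ∀ z, 0 < d.E q z := hs.E0
  have m0 : ∀ z, 0 ≤ d.m q z := fun z =>
    mul_nonneg (E0 z).le (mul_nonneg (by norm_num) (L.rq0 z))
  have el₁ : ∀ z ∈ (univ : Set (VV n)), El d.sx z := fun z _ => ⟨hs.upσ z, hs.loσ z⟩
  have el₂ : ∀ z ∈ (univ : Set (VV n)), El d.sy z := fun z _ => ⟨hs.upτ z, hs.loτ z⟩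
  have F0 : ∀ z, 0 ≤ d.sx.F (d.W q) z := fun z => by
    have h1 : ∑ i, d.sx.D i (d.W q) z ^ 2 ≤ 2 * d.sx.F (d.W q) z :=
      hs.loσ z fun i => d.sx.D i (d.W q) z
    have h2 : 0 ≤ ∑ i, d.sx.D i (d.W q) z ^ 2 := Finset.sum_nonneg fun _ _ => sq_nonneg _
    linarith
  have F0' : ∀ z, 0 ≤ d.sy.F (d.W q) z := fun z => by
    have h1 : ∑ i, d.sy.D i (d.W q) z ^ 2 ≤ 2 * d.sy.F (d.W q) z :=
      hs.loτ z fun i => d.sy.D i (d.W q) z
    have h2 : 0 ≤ ∑ i, d.sy.D i (d.W q) z ^ 2 := Finset.sum_nonneg fun _ _ => sq_nonneg _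
    linarith
  have wIe : ∀ z, (Tab.MI t c).wc z = c * (d.N q z ^ 2 * d.E q z ^ 2 /
      (d.E q z * (1 + d.m q z) + d.N q z ^ 2)) := fun z => by
    unfold Tab.MI Tab.Nu.wI
    rw [ht.En, ht.N, ht.m]
  have dpos : ∀ z, 0 < d.E q z * (1 + d.m q z) + d.N q z ^ 2 := fun z => by
    have := E0 z
    have := m0 z
    positivity
  have cMI : (Tab.MI t c).Ct univ := by
    have g : ∀ z ∈ (univ : Set (VV n)), d.E q z * (1 + d.m q z) + d.N q z ^ 2 ≠ 0 :=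
      fun z _ => (dpos z).ne'
    unfold Tab.MI Tab.Nu.wI
    rw [ht.En, ht.N, ht.m, ht.F₁, ht.F₂]
    exact ⟨continuousOn_const, continuousOn_const, continuousOn_const,
      continuousOn_const.mul cE.continuousOn,
      continuousOn_const.mul (hs.oσ.sF hs.sW.contDiffOn).continuousOn,
      continuousOn_const.mul (hs.oτ.sF hs.sW.contDiffOn).continuousOn,
      continuousOn_const.mul (cE.pow 2).continuousOn,
      continuousOn_const.mul (((cN.pow 2).mul (cE.pow 2)).continuousOn.div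
        ((cE.mul (continuous_const.add cm)).add (cN.pow 2)).continuousOn g)⟩
  have cgq := (c_gq sχ).continuousOn (s := (univ : Set (VV n)))
  have cgp := (c_gp sχ).continuousOn (s := (univ : Set (VV n)))
  have ccI : (Tab.cI t C (fun z => gq χ z + gp χ z) (gp χ)).Ct univ := by
    unfold Tab.cI
    rw [ht.En]
    exact ⟨continuousOn_const, continuousOn_const, continuousOn_const, continuousOn_const,
      continuousOn_const, continuousOn_const,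
      continuousOn_const.mul (cE.continuousOn.mul (cgq.add cgp)),
      continuousOn_const.mul ((cE.continuousOn.mul cgp).add (cgq.add cgp))⟩
  have sN := Na_sm hd
  have sx := rx_sm hd hr M.M rTp
  have sy := ry_sm hd hr M.M rTp
  have Nge : ∀ z, q.M₀ ≤ Na d z := fun z => hd.N_ge _
  have N0 : ∀ z, 0 ≤ Na d z := fun z => by linarith [Nge z, M.M]
  have nrs : ∀ (c : ℝ) (ρ : VV n → ℝ), ContDiff ℝ ∞ ρ → ContDiff ℝ ∞ (nr c (Na d) ρ) :=
    fun c ρ hρ => contDiff_const.mul (sN.mul (hρ.pow 2))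
  have nr0 : ∀ (c : ℝ) (ρ : VV n → ℝ), 0 ≤ c → ∀ z ∈ (univ : Set (VV n)),
      0 ≤ nr c (Na d) ρ z := fun c ρ hc z _ =>
    mul_nonneg hc (mul_nonneg (N0 z) (sq_nonneg _))
  have cQ : Continuous (Qf d.sx d.sy (nuL d) c₁ (Na d) (rx q d) (ry q d)) := by
    have a1 := (sDn hs.oσ (fun i => (hs.sν i).contDiffOn) sy.contDiffOn).continuousOn
    have a2 := (sDn hs.oτ (fun i => (hs.sν i).contDiffOn) sx.contDiffOn).continuousOn
    rw [continuousOn_univ] at a1 a2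
    exact (continuous_const.mul (continuous_const.mul (sN.continuous.mul (a1.pow 2)))).add
      (continuous_const.mul (continuous_const.mul (sN.continuous.mul (a2.pow 2))))
  refine tube_zone (σ := d.sx) (τ := d.sy) (U := univ) (θ := fun _ => 1) (v₁ := 0) (v₂ := 0)
    (W := d.W q) (χ := χ) (k₀ := fun z => c * d.Kf q z)
    (n₁ := nr c₁ (Na d) (ry q d)) (n₂ := nr c₁ (Na d) (rx q d))
    (s₁ := nr (4 * cT) (Na d) (ry q d)) (s₂ := nr (4 * cT) (Na d) (rx q d))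
    (r₁ := rw' (Fintype.card (Fin n)) (4 * cT) A (Na d) (ry q d))
    (r₂ := rw' (Fintype.card (Fin n)) (4 * cT) A (Na d) (rx q d))
    (Q := Qf d.sx d.sy (nuL d) c₁ (Na d) (rx q d) (ry q d)) (N := Na d) (ρx := rx q d)
    (ρy := ry q d) (ν := nuL d) (δ := c / 32) (cT := cT) hs.oσ hs.oτ
    contDiffOn_const contDiffOn_const el₁ el₂ hs.sW.contDiffOn sχ.contDiffOn
    (fun i => (hs.sν i).contDiffOn) (continuous_const.mul hs.sK).continuousOn
    (nrs _ _ sy).contDiffOn (nrs _ _ sx).contDiffOn (nrs _ _ sy).contDiffOn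
    (nrs _ _ sx).contDiffOn cQ.continuousOn sN.continuous.continuousOn
    sx.continuous.continuousOn sy.continuous.continuousOn (nr0 _ _ pc1.le) (nr0 _ _ pc1.le)
    (nr0 _ _ (by positivity)) (nr0 _ _ (by positivity)) (by positivity) cMI ccI ?_ ?_
  · intro z hz h0
    have zO : z ∈ OI q d := hχ (subset_tsupport _ h0)
    have k0 := hs.k0 z zO
    refine th_of hs.oσ hs.oτ (mem_univ z) hs.sW.contDiffOn (fun i => (hs.sν i).contDiffOn)
      sN.contDiffOn sx.contDiffOn sy.contDiffOn (fun z _ => (rx_01 z).1) (fun z _ => (ry_01 z).1)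
      (fun z _ => (rx_01 z).2) (fun z _ => (ry_01 z).2) (N0 z) (el₁ z hz) (el₂ z hz) rfl rfl hA1
      (by rw [Fintype.card_fin]; exact hn1) pc1.le pcT.le (by positivity)
      (by rw [Fintype.card_fin]; exact hcc) ?_ ?_
    · refine ⟨?_, ?_, ?_, ?_, ?_, ?_, ?_, ?_, mul_nonneg hc.le k0⟩
      · show 32 * (c / 32) ≤ c
        linarith
      · exact hc.le
      · exact hc.le
      · show 0 ≤ c * t.En z
        rw [ht.En]
        exact mul_nonneg hc.le (E0 z).le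
      · show 0 ≤ c * t.F₁ z
        rw [ht.F₁]
        exact mul_nonneg hc.le (F0 z)
      · show 0 ≤ c * t.F₂ z
        rw [ht.F₂]
        exact mul_nonneg hc.le (F0' z)
      · exact mul_nonneg hc.le (sq_nonneg _)
      · rw [wIe]
        have := dpos z
        positivity
    · intro hh
      have f := HT z zO zO.2.2.2.2 hh
      have N1 : 1 ≤ Na d z := M.M.trans f.N0
      have NE1 : Na d z ≤ d.E q z := by
        have h1 := f.EN
        have h2 := E0 z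
        have h3 : 16 * q.c₀ * d.E q z ≤ 1 * d.E q z :=
          mul_le_mul_of_nonneg_right (by linarith) h2.le
        linarith
      have mN : d.m q z ≤ Na d z := by
        have h1 := f.mN
        have h3 : 16 * q.c₀ * Na d z ≤ 1 * Na d z :=
          mul_le_mul_of_nonneg_right (by linarith) (N0 z)
        linarith
      have g1 : 1536 * (n : ℝ) ^ 2 * A ≤ Na d z := Ma.trans f.N0
      have g2 : 6 * A * (64 * c₁ * (n : ℝ) ^ 2 * A ^ 2 + 2560 * n * cT * A ^ 2) ≤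
          c * Na d z := Mc.trans (mul_le_mul_of_nonneg_left f.N0 hc.le)
      have g3 := p1_num (t₀ := t₀) hA hcT X0 X1 hA₀ pt0.le qt2 hc g2 (by linarith)
      have pA : 0 < A := by linarith
      refine ⟨sf_x f Bx hs.dσ, sf_y f By hs.dτ, ?_, by rw [Fintype.card_fin]; exact g1, ?_⟩
      · rw [Fintype.card_fin]
        refine ⟨?_, ?_, ?_, ?_⟩
        · show 2 * c₁ * Na d z ≤ c * d.Kf q z
          have h1 := mul_le_mul_of_nonneg_left f.KN pc1.le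
          have h2 : c₁ * (2 * d.Kf q z) ≤ c / 2 * d.Kf q z := by
            rw [hc1]
            nlinarith
          linarith
        · show 8 * c₁ * Na d z ≤ c * t.En z
          rw [ht.En, hc1]
          have := mul_le_mul_of_nonneg_left NE1 hc.le
          linarith
        · show _ ≤ c * t.En z ^ 2
          rw [ht.En]
          refine g3.trans (mul_le_mul_of_nonneg_left ?_ hc.le)
          have h1 : Na d z ^ 2 ≤ d.E q z ^ 2 := pow_le_pow_left₀ (N0 z) NE1 2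
          have h2 : Na d z ^ 2 / (3 * A) ≤ Na d z ^ 2 :=
            div_le_self (sq_nonneg _) (by linarith)
          linarith
        · rw [wIe]
          refine g3.trans (mul_le_mul_of_nonneg_left ?_ hc.le)
          have h1 := wI_ge N1 NE1 f.NE mN (m0 z)
          rw [f.NN]
          exact h1
      · exact Mb.trans (mul_le_mul_of_nonneg_left f.N0 (by positivity))
  · intro a b ha hb
    have key := HK a b ha hb
    refine le_trans (le_of_eq ?_) key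
    congr 2
    unfold In
    refine integral_congr_ae (Eventually.of_forall fun z => ?_)
    have e : Xn d.sx (nuL d) (d.W q) a z + Xn d.sy (nuL d) (d.W q) b z =
        ∑ i, nuL d i z * (Vale.Agent.P088.R2.H644.Ch.XX d.sx (d.W q) a z i +
          Vale.Agent.P088.R2.H644.Ch.XX d.sy (d.W q) b z i) := by
      unfold Xn
      rw [← Finset.sum_add_distrib]
      exact Finset.sum_congr rfl fun i _ => by ring
    simp only [e]
    ring

/-- **The leaf `zI`.** -/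
theorem zI_leaf (hAI : RowAI') (hCM : RowCM) (hEN : RowEN) (hCW : RowCW) (hPW : RowPW)
    (hRF : RowRF) (hTF : RowTF) : ∀ n : ℕ, 3 ≤ n → ∃ c C c₁ t₀ : ℝ, 0 < c ∧ 0 < C ∧ 0 < c₁ ∧
    0 < t₀ ∧ EvC fun q => ∀ d : Pk n, PkOk q d → ∀ t : Tab.Nu (VV n), NuOk q d t →
      d.Zone q (d.ch q .zI)
        ((mgZI q d t c (t₀ * (q.c₀ * q.rT) ^ 2)).sm fun z => d.ch q .zI z ^ 2)
        (coZI q d t C c₁ (t₀ * (q.c₀ * q.rT) ^ 2) (d.ch q .zI)) := by
  intro n hn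
  obtain ⟨c, C, c₁, t₀, h1, h2, h3, h4, H⟩ := zI_tube hAI hCM hEN hCW hPW hRF hTF n hn
  refine ⟨c, C, c₁, t₀, h1, h2, h3, h4, ((H.and (supp_zI n)).and (EvC.litSm n)).mono ?_⟩
  rintro q ⟨⟨H, hS⟩, hL⟩ d hd t ht
  exact H d hd t ht _ ((hL d hd).ch _) (hS d hd)

end Vale.Agent.P088.R2.H338.TC
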