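import Vale.Agent.P088.R2.H338.C.ThC
import Vale.Agent.P088.R2.H338.C.TubS
import Vale.Agent.P088.R2.H205.C.ZT
import Vale.Agent.P088.R2.H509.EP.Lit2
import Vale.Agent.P088.R2.H31.EP.CstL

/-!
# P088, stage 3, zone C: region I with the tube letters
-/

open Set Filter MeasureTheory
open scoped ContDiff Topology

noncomputable section

namespace Vale.Agent.P088.R2.H338.TC

open Vale.Agent.P088.LR Vale.Agent.P088.HY
open Vale.Agent.P088.R2.H961.GW Vale.Agent.P088.R2.H551.E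
open Vale.Agent.P088.R2.H31.EP Vale.Agent.P088.R2.H165
open Vale.Agent.P088.R2.H205.CP
open Vale.Agent.P088.R2.H338.C
open Vale.Agent.P088.R2.H86.Z (El)

variable {n : ℕ}

/-! ## The slots -/

theorem norm_single (i : Fin n) : ‖(Pi.single i 1 : V n)‖ ≤ 1 := by
  refine (pi_norm_le_iff_of_nonneg zero_le_one).2 fun j => ?_
  by_cases h : j = i
  · subst h
    simp
  · simp [Pi.single_eq_of_ne h]

/-- First derivatives of the entries of a tensor. -/
theorem fd_entry {s : MF n} {ε R : ℝ} (h : ∀ i j, ∀ x,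
    ‖iteratedFDeriv ℝ 1 (fun x => s x i j - (1 : Matrix (Fin n) (Fin n) ℝ) i j) x‖ ≤
      ε * R⁻¹ ^ 1) (hε : ε * R⁻¹ ^ 1 ≤ 1) (i j k : Fin n) (x : V n) :
    |fderiv ℝ (fun x => s x i j) x (Pi.single k 1)| ≤ 1 := by
  have h1 := h i j x
  rw [norm_iteratedFDeriv_one] at h1
  have e : fderiv ℝ (fun x => s x i j - (1 : Matrix (Fin n) (Fin n) ℝ) i j) x =
      fderiv ℝ (fun x => s x i j) x := by
    rw [fderiv_sub_const]
  rw [e] at h1
  have h2 := ContinuousLinearMap.le_opNorm (fderiv ℝ (fun x => s x i j) x) (Pi.single k 1)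
  rw [Real.norm_eq_abs] at h2
  have h3 := mul_le_mul (h1.trans hε) (norm_single k) (norm_nonneg _) zero_le_one
  linarith

theorem one_en (i j : Fin n) : |(1 : Matrix (Fin n) (Fin n) ℝ) i j| ≤ 1 := by
  rw [Matrix.one_apply]
  split_ifs <;> simp

/-- The facts of a slot. -/
structure SlB (σ : Sl (VV n) (Fin n)) : Prop where
  k : ∀ i z, |σ.k i z| ≤ 1
  s0 : ∀ i j z, |σ.s i j z| ≤ 2
  s1 : ∀ i j z, |σ.D i (σ.s i j) z| ≤ 1

theorem slx_B {s : MF n} (hs : SmM s) (h0 : ∀ x i j, |s x i j - (1 : Matrix (Fin n) (Fin n) ℝ) i j| ≤ 1)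
    (h1 : ∀ i j k x, |fderiv ℝ (fun x => s x i j) x (Pi.single k 1)| ≤ 1) :
    SlB (slx (fun _ => (1 : ℝ)) s) where
  k i z := by
    have : (slx (fun _ => (1 : ℝ)) s).k i z = -((n : ℝ) - 1) * pd i (fun _ => (1 : ℝ)) z.1 := rfl
    rw [this]
    have e : pd i (fun _ : V n => (1 : ℝ)) z.1 = 0 := by simp [pd]
    rw [e]
    simp
  s0 i j z := by
    have h := h0 z.1 i j
    have hd := one_en i j
    have e : (slx (fun _ => (1 : ℝ)) s).s i j z = (s z.1 i j - (1 : Matrix (Fin n) (Fin n) ℝ) i j) +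
        (1 : Matrix (Fin n) (Fin n) ℝ) i j := by
      show s z.1 i j = _
      ring
    rw [e]
    exact (abs_add_le _ _).trans (by linarith)
  s1 i j z := by
    have e : (slx (fun _ => (1 : ℝ)) s).D i ((slx (fun _ => (1 : ℝ)) s).s i j) z =
        fderiv ℝ (fun x => s x i j) z.1 (Pi.single i 1) := by
      show 1 * fderiv ℝ (fun z : VV n => s z.1 i j) z (Pi.single i 1, 0) = _
      have hd : HasFDerivAt (fun z : VV n => s z.1 i j)
          ((fderiv ℝ (fun x => s x i j) z.1).comp (ContinuousLinearMap.fst ℝ (V n) (V n))) z :=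
        (((hs i j).differentiable (by simp) z.1).hasFDerivAt).comp z hasFDerivAt_fst
      rw [hd.fderiv]
      simp
    rw [e]
    exact h1 i j i z.1

theorem sly_B {s : MF n} (hs : SmM s) (h0 : ∀ x i j, |s x i j - (1 : Matrix (Fin n) (Fin n) ℝ) i j| ≤ 1)
    (h1 : ∀ i j k x, |fderiv ℝ (fun x => s x i j) x (Pi.single k 1)| ≤ 1) :
    SlB (sly (fun _ => (1 : ℝ)) s) where
  k i z := by
    have : (sly (fun _ => (1 : ℝ)) s).k i z = -((n : ℝ) - 1) * pd i (fun _ => (1 : ℝ)) z.2 := rfl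
    rw [this]
    have e : pd i (fun _ : V n => (1 : ℝ)) z.2 = 0 := by simp [pd]
    rw [e]
    simp
  s0 i j z := by
    have h := h0 z.2 i j
    have hd := one_en i j
    have e : (sly (fun _ => (1 : ℝ)) s).s i j z = (s z.2 i j - (1 : Matrix (Fin n) (Fin n) ℝ) i j) +
        (1 : Matrix (Fin n) (Fin n) ℝ) i j := by
      show s z.2 i j = _
      ring
    rw [e]
    exact (abs_add_le _ _).trans (by linarith)
  s1 i j z := by
    have e : (sly (fun _ => (1 : ℝ)) s).D i ((sly (fun _ => (1 : ℝ)) s).s i j) z =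
        fderiv ℝ (fun x => s x i j) z.2 (Pi.single i 1) := by
      show 1 * fderiv ℝ (fun z : VV n => s z.2 i j) z (0, Pi.single i 1) = _
      have hd : HasFDerivAt (fun z : VV n => s z.2 i j)
          ((fderiv ℝ (fun x => s x i j) z.2).comp (ContinuousLinearMap.snd ℝ (V n) (V n))) z :=
        (((hs i j).differentiable (by simp) z.2).hasFDerivAt).comp z hasFDerivAt_snd
      rw [hd.fderiv]
      simp
    rw [e]
    exact h1 i j i z.2

theorem pk_B {q : Cst} {d : Pk n} (h : PkOk q d) (hε : q.ε ≤ 1) (hR : 1 ≤ q.R) :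
    SlB d.sx ∧ SlB d.sy := by
  have e1 : q.ε * q.R⁻¹ ^ 1 ≤ 1 := by
    have h1 : q.R⁻¹ ^ 1 ≤ 1 := by
      rw [pow_one]
      exact inv_le_one_of_one_le₀ hR
    have h2 : 0 ≤ q.R⁻¹ ^ 1 := by positivity
    exact mul_le_one₀ hε h2 h1
  have hz : ∀ (s : MF n), (∀ i j, ∀ m ≤ 12, ∀ x,
      ‖iteratedFDeriv ℝ m (fun x => s x i j - (1 : Matrix (Fin n) (Fin n) ℝ) i j) x‖ ≤
      q.ε * q.R⁻¹ ^ m) → ∀ x i j, |s x i j - (1 : Matrix (Fin n) (Fin n) ℝ) i j| ≤ 1 := fun s hs x i j => by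
    have h1 := hs i j 0 (by norm_num) x
    rw [norm_iteratedFDeriv_zero, Real.norm_eq_abs, pow_zero, mul_one] at h1
    exact h1.trans hε
  exact ⟨slx_B h.rg.sm₁ (hz _ h.rg.cl₁) fun i j k x =>
      fd_entry (fun i j x => h.rg.cl₁ i j 1 (by norm_num) x) e1 i j k x,
    sly_B h.rg.sm₂ (hz _ h.rg.cl₂) fun i j k x =>
      fd_entry (fun i j x => h.rg.cl₂ i j 1 (by norm_num) x) e1 i j k x⟩

end Vale.Agent.P088.R2.H338.TC
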