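import Vale.Agent.P088.R2.H338.C.ZI

/-!
# P088, stage 3, zone C: region I with the tube letters, the theorem
-/

open Set Filter MeasureTheory
open scoped ContDiff Topology

noncomputable section

namespace Vale.Agent.P088.R2.H338.TC

open Vale.Agent.P088.LR Vale.Agent.P088.HY
open Vale.Agent.P088.R2.H961.GW Vale.Agent.P088.R2.H551.E
open Vale.Agent.P088.R2.H31.EP Vale.Agent.P088.R2.H165
open Vale.Agent.P088.R2.H205.CP
open Vale.Agent.P088.R2.H338.C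
open Vale.Agent.P088.R2.H86.Z (El)
open Real (smoothTransition)

variable {n : ℕ} {q : Cst} {d : Pk n} {A : ℝ} {z : VV n}

/-- The margin of the leaf `zI`. -/
def mgZI (q : Cst) (d : Pk n) (t : Tab.Nu (VV n)) (c cT : ℝ) : Q8 (VV n) :=
  qt (Tab.MI t c) + TL cT (Na d) (rx q d) (ry q d)

/-- The cost of the leaf `zI`. -/
def coZI (q : Cst) (d : Pk n) (t : Tab.Nu (VV n)) (C c₁ cT : ℝ) (χ : VV n → ℝ) : Q8 (VV n) :=
  Tab.cI t C (fun z => gq χ z + gp χ z) (gp χ) +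
    cdn d.sx d.sy (nuL d) χ (nr c₁ (Na d) (ry q d)) (nr c₁ (Na d) (rx q d)) +
    cu2 d.sx d.sy (nr (4 * cT) (Na d) (ry q d)) (nr (4 * cT) (Na d) (rx q d)) χ

/-! ## Smoothness -/

theorem Na_sm (h : PkOk q d) : ContDiff ℝ ∞ (Na d) := h.Φ's.comp h.u0_sm

theorem rr_sm (q : Cst) : ContDiff ℝ ∞ (rr q : VV n → ℝ) :=
  PkOk.st_sm (((contDiff_const.mul qq_sm).div_const _).sub contDiff_const)

theorem rx_sm (h : PkOk q d) (hr : H509.Rad.Ok q.e₁ rp) (hM : 1 ≤ q.M₀) (hT : 0 < q.rT) :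
    ContDiff ℝ ∞ (rx q d) :=
  (rr_sm q).mul (PkOk.st_sm (contDiff_const.sub (h.tx_sm hr hM (by linarith))))

theorem ry_sm (h : PkOk q d) (hr : H509.Rad.Ok q.e₁ rp) (hM : 1 ≤ q.M₀) (hT : 0 < q.rT) :
    ContDiff ℝ ∞ (ry q d) :=
  (rr_sm q).mul (PkOk.st_sm (contDiff_const.sub (h.ty_sm hr hM (by linarith))))

theorem st_prod {a b : ℝ} : 0 ≤ smoothTransition a * smoothTransition b ∧
    smoothTransition a * smoothTransition b ≤ 1 :=
  ⟨mul_nonneg (smoothTransition.nonneg _) (smoothTransition.nonneg _),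
    mul_le_one₀ (smoothTransition.le_one _) (smoothTransition.nonneg _) (smoothTransition.le_one _)⟩

theorem rx_01 (z : VV n) : 0 ≤ rx q d z ∧ rx q d z ≤ 1 := st_prod

theorem ry_01 (z : VV n) : 0 ≤ ry q d z ∧ ry q d z ≤ 1 := st_prod

/-! ## The facts of the slots -/

theorem sf_y (f : TF A q d z) (b : SlB d.sy) (dτ : ∀ i f z, d.sy.D i f z = dy i f z) :
    SF d.sy (nuL d) (d.W q) (Na d) (rx q d) A z where
  w1 i := by rw [dτ]; exact f.wy i
  w2 i j := by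
    have e : d.sy.D j (d.W q) = dy j (d.W q) := funext fun z => dτ j _ z
    rw [e, dτ]
    exact f.wyy i j
  n1 i := by rw [dτ]; exact f.ny i
  ν0 := f.ν1
  ν1 i j := by rw [dτ]; exact f.νy i j
  k1 i := b.k i z
  s0 i j := b.s0 i j z
  s1 i j := b.s1 i j z
  ρ1 i := by rw [dτ]; exact f.ρxy i
  ρ0 := (rx_01 z).1
  ρ2 := (rx_01 z).2
  v h := by
    have h1 := f.vx h
    have e : Dn d.sy (nuL d) (d.W q) z = ∑ i, nuL d i z * dy i (d.W q) z :=
      Finset.sum_congr rfl fun i _ => by rw [dτ]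
    rw [e]
    exact h1

theorem sf_x (f : TF A q d z) (b : SlB d.sx) (dσ : ∀ i f z, d.sx.D i f z = dx i f z) :
    SF d.sx (nuL d) (d.W q) (Na d) (ry q d) A z where
  w1 i := by rw [dσ]; exact f.wx i
  w2 i j := by
    have e : d.sx.D j (d.W q) = dx j (d.W q) := funext fun z => dσ j _ z
    rw [e, dσ]
    exact f.wxx i j
  n1 i := by rw [dσ]; exact f.nx i
  ν0 := f.ν1
  ν1 i j := by rw [dσ]; exact f.νx i j
  k1 i := b.k i z
  s0 i j := b.s0 i j z
  s1 i j := b.s1 i j z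
  ρ1 i := by rw [dσ]; exact f.ρyx i
  ρ0 := (ry_01 z).1
  ρ2 := (ry_01 z).2
  v h := by
    have h1 := f.vy h
    have e : Dn d.sx (nuL d) (d.W q) z = ∑ i, nuL d i z * dx i (d.W q) z :=
      Finset.sum_congr rfl fun i _ => by rw [dσ]
    rw [e]
    exact h1

/-! ## The numbers -/

/-- `wI ≥ N² / (3 A)`. -/
theorem wI_ge {N E m : ℝ} (hN : 1 ≤ N) (h1 : N ≤ E) (h2 : E ≤ A * N) (h3 : m ≤ N) (hm : 0 ≤ m) :
    N ^ 2 / (3 * A) ≤ N ^ 2 * E ^ 2 / (E * (1 + m) + N ^ 2) := by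
  have hA : 0 < A := by
    by_contra hc
    have : A * N ≤ 0 := mul_nonpos_of_nonpos_of_nonneg (not_lt.1 hc) (by linarith)
    linarith
  have hA1 : 1 ≤ A := by
    by_contra hc
    have : A * N < N := by nlinarith [not_le.1 hc]
    linarith
  have hE : 0 < E := by linarith
  have hd : 0 < E * (1 + m) + N ^ 2 := by positivity
  rw [div_le_div_iff₀ (by positivity) hd]
  have k1 : E * (1 + m) ≤ A * N * (2 * N) := mul_le_mul h2 (by linarith) (by linarith) (by positivity)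
  have k2 : N ^ 2 ≤ E ^ 2 := pow_le_pow_left₀ (by linarith) h1 2
  have k3 : E * (1 + m) + N ^ 2 ≤ 3 * A * N ^ 2 := by nlinarith [sq_nonneg N]
  have k4 : 3 * A * N ^ 2 ≤ E ^ 2 * (3 * A) := by nlinarith
  have := mul_le_mul_of_nonneg_left (k3.trans k4) (sq_nonneg N)
  linarith

/-- The numbers of the payer on the tubes. -/
theorem p1_num {c₀ rT A₀ t₀ c N B A cT : ℝ} (hA : A = A₀ / (c₀ * rT))
    (hcT : cT = t₀ * (c₀ * rT) ^ 2) (h0 : 0 < c₀ * rT) (h1 : c₀ * rT ≤ 1) (hA₀ : 1 ≤ A₀)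
    (ht : 0 ≤ t₀) (ht2 : 12 * A₀ * t₀ ≤ c) (hc : 0 < c) (hB : 6 * A * B ≤ c * N) (hN : 0 < N) :
    B * N + 2 * cT * N ^ 2 ≤ c * (N ^ 2 / (3 * A)) := by
  have pA : 0 < A := by rw [hA]; positivity
  have k1 : B * N ≤ c * N ^ 2 / (6 * A) := by
    rw [le_div_iff₀ (by positivity)]
    have := mul_le_mul_of_nonneg_right hB hN.le
    nlinarith
  have k2 : 12 * A * cT ≤ c := by
    rw [hA, hcT]
    have e : 12 * (A₀ / (c₀ * rT)) * (t₀ * (c₀ * rT) ^ 2) = 12 * A₀ * t₀ * (c₀ * rT) := by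
      field_simp
    rw [e]
    have : 12 * A₀ * t₀ * (c₀ * rT) ≤ 12 * A₀ * t₀ * 1 :=
      mul_le_mul_of_nonneg_left h1 (by positivity)
    linarith
  have k3 : 2 * cT * N ^ 2 ≤ c * N ^ 2 / (6 * A) := by
    rw [le_div_iff₀ (by positivity)]
    have := mul_le_mul_of_nonneg_right k2 (sq_nonneg N)
    nlinarith
  have e : c * (N ^ 2 / (3 * A)) = c * N ^ 2 / (6 * A) + c * N ^ 2 / (6 * A) := by
    field_simp
    ring
  linarith

end Vale.Agent.P088.R2.H338.TC
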