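import Vale.Agent.P088.R2.H338.C.ZK
import Vale.Agent.P088.R2.H455.E.Lett

/-!
# P088, stage 3: the zone theorem of the leaf `zI` for the letters of the composition
-/

open Set Filter MeasureTheory
open scoped ContDiff Topology

noncomputable section

namespace Vale.Agent.P088.R2.H338.TC

open Vale.Agent.P088.LR Vale.Agent.P088.HY
open Vale.Agent.P088.R2.H961.GW Vale.Agent.P088.R2.H551.E
open Vale.Agent.P088.R2.H31.EP Vale.Agent.P088.R2.H165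
open Vale.Agent.P088.R2.H205.CP
open Vale.Agent.P088.R2.H338.C
open Vale.Agent.P088.R2.H867.Z (sq1 sqp sq1_nn sqp_nn)
open Vale.Agent.P088.R2.H455.E (Lc Mz coz ZoE RowZo SmE cTu nu)

variable {n : ℕ} {q : Cst} {d : Pk n} {z : VV n} {χ : VV n → ℝ}

theorem gqp_le (χ : VV n → ℝ) (z : VV n) : gq χ z + gp χ z ≤ 2 * sq1 χ z := by
  unfold gq gp sq1 dq Vale.Agent.P088.R2.H205.CP.dp
  rw [← Finset.sum_add_distrib, Finset.mul_sum]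
  refine Finset.sum_le_sum fun i _ => ?_
  nlinarith [sq_nonneg (dx i χ z + dy i χ z), sq_nonneg (dx i χ z - dy i χ z)]

/-- `(D_ν χ)² ≤ |Dχ|²`. -/
theorem Dnx_le {σ : Sl (VV n) (Fin n)} {ν : Fin n → VV n → ℝ} (hν : ∑ i, ν i z ^ 2 ≤ 1) :
    Dn σ ν χ z ^ 2 ≤ ∑ i, σ.D i χ z ^ 2 := by
  unfold Dn
  have h := Finset.sum_mul_sq_le_sq_mul_sq Finset.univ (fun i => ν i z) fun i => σ.D i χ z
  have h1 : 0 ≤ ∑ i, σ.D i χ z ^ 2 := Finset.sum_nonneg fun _ _ => sq_nonneg _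
  exact h.trans (mul_le_of_le_one_left h1 hν)

theorem sx_sq1 (h : ∀ i f z, d.sx.D i f z = dx i f z) :
    ∑ i, d.sx.D i χ z ^ 2 ≤ sq1 χ z := by
  unfold sq1
  refine Finset.sum_le_sum fun i _ => ?_
  rw [h]
  nlinarith [sq_nonneg (dy i χ z)]

theorem sy_sq1 (h : ∀ i f z, d.sy.D i f z = dy i f z) :
    ∑ i, d.sy.D i χ z ^ 2 ≤ sq1 χ z := by
  unfold sq1
  refine Finset.sum_le_sum fun i _ => ?_
  rw [h]
  nlinarith [sq_nonneg (dx i χ z)]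

theorem Dn_off {σ : Sl (VV n) (Fin n)} {ν : Fin n → VV n → ℝ} (h : z ∉ tsupport χ) :
    Dn σ ν χ z = 0 := by
  have e : χ =ᶠ[𝓝 z] fun _ => (0 : ℝ) := by
    filter_upwards [(isClosed_tsupport χ).isOpen_compl.mem_nhds h] with w hw
    exact image_eq_zero_of_notMem_tsupport hw
  unfold Dn
  refine Finset.sum_eq_zero fun i _ => ?_
  have : σ.D i χ z = σ.D i (fun _ => (0 : ℝ)) z := D_congr_nhds σ e i
  rw [this, D_const, mul_zero]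

/-- One additional cost letter. -/
theorem cost_one {N ρ ρ' D G Z c₁ cT t₀ CN : ℝ} (hN : 0 ≤ N) (hc1 : 0 ≤ c₁) (hcT : 0 ≤ cT)
    (hcT' : cT ≤ t₀) (hD : D ≤ Z) (hG : G ≤ 2 * Z) (hZ : 0 ≤ Z)
    (hC : 16 * c₁ + 512 * t₀ ≤ CN) :
    2 * (8 * (c₁ * (N * ρ ^ 2) * D)) + 64 * (4 * cT * (N * ρ ^ 2) * G) ≤
      CN * (N * (ρ ^ 2 + ρ' ^ 2) * Z) := by
  have p : 0 ≤ N * ρ ^ 2 := by positivity
  have k1 : c₁ * (N * ρ ^ 2) * D ≤ c₁ * (N * ρ ^ 2) * Z :=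
    mul_le_mul_of_nonneg_left hD (by positivity)
  have k2 : 4 * cT * (N * ρ ^ 2) * G ≤ 4 * cT * (N * ρ ^ 2) * (2 * Z) :=
    mul_le_mul_of_nonneg_left hG (by positivity)
  have k3 : cT * (N * ρ ^ 2 * Z) ≤ t₀ * (N * ρ ^ 2 * Z) :=
    mul_le_mul_of_nonneg_right hcT' (by positivity)
  have k4 := mul_le_mul_of_nonneg_right hC (by positivity : 0 ≤ N * ρ ^ 2 * Z)
  have hCN : 0 ≤ CN := by
    have : 0 ≤ t₀ := hcT.trans hcT'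
    linarith
  have k5 : 0 ≤ CN * (N * ρ' ^ 2 * Z) := by positivity
  nlinarith

section le

variable {L : Lc n} {c C c₁ cT t₀ : ℝ}

/-- The margins. -/
theorem mg_le (h1 : L.cI q ≤ c / 4) (g3 : L.cN q ≤ cT) (E0 : 0 ≤ d.E q z)
    (F0 : 0 ≤ d.sx.F (d.W q) z) (F0' : 0 ≤ d.sy.F (d.W q) z) (w0 : 0 ≤ (nu L.kz q d).wI z)
    (N0 : 0 ≤ Na d z) (a b : VV n → ℝ) :
    (Mz L q d .zI).dens d.sx d.sy 0 0 (d.W q) a b z ≤
      (mgZI q d (nu L.kz q d) c cT).dens d.sx d.sy 0 0 (d.W q) a b z := by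
  have h3 : L.cN q * (Na d z * (rx q d z ^ 2 + ry q d z ^ 2)) ≤
      cT * (Na d z * (rx q d z ^ 2 + ry q d z ^ 2)) :=
    mul_le_mul_of_nonneg_right g3 (by positivity)
  have h4 : L.cN q * (Na d z ^ 2 * rx q d z ^ 2 + Na d z ^ 3 * ry q d z ^ 2) ≤
      cT * (Na d z ^ 2 * rx q d z ^ 2 + Na d z ^ 3 * ry q d z ^ 2) :=
    mul_le_mul_of_nonneg_right g3 (by positivity)
  have h5 : L.cN q * (Na d z ^ 3 * rx q d z ^ 2 + Na d z ^ 2 * ry q d z ^ 2) ≤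
      cT * (Na d z ^ 3 * rx q d z ^ 2 + Na d z ^ 2 * ry q d z ^ 2) :=
    mul_le_mul_of_nonneg_right g3 (by positivity)
  have h6 := mul_le_mul_of_nonneg_right h1 E0
  have h7 := mul_le_mul_of_nonneg_right h1 F0
  have h8 := mul_le_mul_of_nonneg_right h1 F0'
  have h9 := mul_le_mul_of_nonneg_right h1 (sq_nonneg (d.E q z))
  have h10 := mul_le_mul_of_nonneg_right h1 w0
  refine Q8.dens_le ⟨?_, ?_, ?_, ?_, ?_, ?_, ?_, ?_⟩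
  · show L.cI q + 0 ≤ 1 / 4 * c + 0
    linarith
  · show L.cI q + L.cN q * (Na d z * (rx q d z ^ 2 + ry q d z ^ 2)) ≤
      1 / 4 * c + cT * (Na d z * (rx q d z ^ 2 + ry q d z ^ 2))
    linarith
  · show L.cI q + L.cN q * (Na d z * (rx q d z ^ 2 + ry q d z ^ 2)) ≤
      1 / 4 * c + cT * (Na d z * (rx q d z ^ 2 + ry q d z ^ 2))
    linarith
  · show L.cI q * d.E q z + 0 ≤ 1 / 4 * (c * d.E q z) + 0
    linarith
  · show L.cI q * d.sx.F (d.W q) z +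
      L.cN q * (Na d z ^ 2 * rx q d z ^ 2 + Na d z ^ 3 * ry q d z ^ 2) ≤
      1 / 4 * (c * d.sx.F (d.W q) z) +
      cT * (Na d z ^ 2 * rx q d z ^ 2 + Na d z ^ 3 * ry q d z ^ 2)
    linarith
  · show L.cI q * d.sy.F (d.W q) z +
      L.cN q * (Na d z ^ 3 * rx q d z ^ 2 + Na d z ^ 2 * ry q d z ^ 2) ≤
      1 / 4 * (c * d.sy.F (d.W q) z) +
      cT * (Na d z ^ 3 * rx q d z ^ 2 + Na d z ^ 2 * ry q d z ^ 2)
    linarith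
  · show L.cI q * d.E q z ^ 2 + 0 ≤ 1 / 4 * (c * d.E q z ^ 2) + 0
    linarith
  · show L.cI q * (nu L.kz q d).wI z + 0 ≤ 1 / 4 * (c * (nu L.kz q d).wI z) + 0
    linarith

/-- The cost of the leaf for a cut-off. -/
def coL (L : Lc n) (q : Cst) (d : Pk n) (χ : VV n → ℝ) : Q8 (VV n) :=
  Tab.cI (nu L.kz q d) (L.CI q) (sq1 χ) (sqp χ) +
    cTu (L.CN q) (Na d) (rx q d) (ry q d) (sq1 χ)

/-- The additional costs of one slot. -/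
theorem cost_sl {σ : Sl (VV n) (Fin n)} {ρ ρ' : VV n → ℝ} {CN : ℝ}
    (h2 : 0 ≤ Na d z) (hc1 : 0 ≤ c₁) (pcT : 0 ≤ cT) (qcT : cT ≤ t₀)
    (hC : 16 * c₁ + 512 * t₀ ≤ CN) (hν : z ∈ tsupport χ → ∑ i, nuL d i z ^ 2 ≤ 1)
    (hσ : ∑ i, σ.D i χ z ^ 2 ≤ sq1 χ z) (hΓ : σ.Γ χ χ z ≤ 2 * ∑ i, σ.D i χ z ^ 2) :
    2 * (8 * (nr c₁ (Na d) ρ z * Dn σ (nuL d) χ z ^ 2)) +
      64 * (nr (4 * cT) (Na d) ρ z * σ.Γ χ χ z) ≤
      CN * (Na d z * (ρ z ^ 2 + ρ' z ^ 2) * sq1 χ z) := by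
  have Z0 := sq1_nn χ z
  have hD : Dn σ (nuL d) χ z ^ 2 ≤ sq1 χ z := by
    by_cases hz : z ∈ tsupport χ
    · exact (Dnx_le (hν hz)).trans hσ
    · rw [Dn_off hz]
      simpa using Z0
  have := cost_one (ρ := ρ z) (ρ' := ρ' z) h2 hc1 pcT qcT hD (hΓ.trans (by linarith)) Z0 hC
  unfold nr
  linarith

/-- The costs. -/
theorem co_le (h2 : 0 ≤ Na d z) (hc1 : 0 ≤ c₁) (pcT : 0 ≤ cT) (qcT : cT ≤ t₀)
    (hCN : 16 * c₁ + 512 * t₀ ≤ L.CN q) (hν : z ∈ tsupport χ → ∑ i, nuL d i z ^ 2 ≤ 1)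
    (dσ : ∀ i f z, d.sx.D i f z = dx i f z) (dτ : ∀ i f z, d.sy.D i f z = dy i f z)
    (uσ : d.sx.Γ χ χ z ≤ 2 * ∑ i, d.sx.D i χ z ^ 2)
    (uτ : d.sy.Γ χ χ z ≤ 2 * ∑ i, d.sy.D i χ z ^ 2)
    (k3 : 0 ≤ d.E q z) (hC : 0 ≤ C) (hCI : 2 * C ≤ L.CI q) (a b : VV n → ℝ) :
    (coZI q d (nu L.kz q d) C c₁ cT χ).dens d.sx d.sy 0 0 (d.W q) a b z ≤
      (coL L q d χ).dens d.sx d.sy 0 0 (d.W q) a b z := by
  have Z0 := sq1_nn χ z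
  have Zp := sqp_nn χ z
  have k1 := gqp_le χ z
  have k4 : gp χ z = sqp χ z := rfl
  refine Q8.dens_le ⟨?_, ?_, ?_, ?_, ?_, ?_, ?_, ?_⟩
  · show (0 : ℝ) + 0 + 0 ≤ 0 + 0
    norm_num
  · show (0 : ℝ) + 0 + 0 ≤ 0 + 0
    norm_num
  · show (0 : ℝ) + 0 + 0 ≤ 0 + 0
    norm_num
  · show (0 : ℝ) + 0 + 0 ≤ 0 + 0
    norm_num
  · have := cost_sl (ρ := ry q d) (ρ' := rx q d) h2 hc1 pcT qcT hCN hν (sx_sq1 dσ) uσ
    show 0 + 2 * (8 * (nr c₁ (Na d) (ry q d) z * Dn d.sx (nuL d) χ z ^ 2)) +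
        64 * (nr (4 * cT) (Na d) (ry q d) z * d.sx.Γ χ χ z) ≤
      0 + L.CN q * (Na d z * (rx q d z ^ 2 + ry q d z ^ 2) * sq1 χ z)
    rw [add_comm (rx q d z ^ 2)]
    linarith
  · have := cost_sl (ρ := rx q d) (ρ' := ry q d) h2 hc1 pcT qcT hCN hν (sy_sq1 dτ) uτ
    show 0 + 2 * (8 * (nr c₁ (Na d) (rx q d) z * Dn d.sy (nuL d) χ z ^ 2)) +
        64 * (nr (4 * cT) (Na d) (rx q d) z * d.sy.Γ χ χ z) ≤
      0 + L.CN q * (Na d z * (rx q d z ^ 2 + ry q d z ^ 2) * sq1 χ z)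
    linarith
  · show C * (d.E q z * (gq χ z + gp χ z)) + 0 + 0 ≤ L.CI q * (d.E q z * sq1 χ z) + 0
    have a1 : d.E q z * (gq χ z + gp χ z) ≤ d.E q z * (2 * sq1 χ z) :=
      mul_le_mul_of_nonneg_left k1 k3
    have a2 := mul_le_mul_of_nonneg_left a1 hC
    have a3 := mul_le_mul_of_nonneg_right hCI (mul_nonneg k3 Z0)
    linarith
  · show C * (d.E q z * gp χ z + (gq χ z + gp χ z)) + 0 + 0 ≤
      L.CI q * (d.E q z * sqp χ z + sq1 χ z) + 0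
    rw [k4] at k1 ⊢
    have a1 : d.E q z * sqp χ z + (gq χ z + sqp χ z) ≤ 2 * (d.E q z * sqp χ z + sq1 χ z) := by
      have := mul_nonneg k3 Zp
      linarith
    have a2 := mul_le_mul_of_nonneg_left a1 hC
    have a3 := mul_le_mul_of_nonneg_right hCI (add_nonneg (mul_nonneg k3 Zp) Z0)
    linarith

end le

end Vale.Agent.P088.R2.H338.TC
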