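import Vale.Agent.P088.R2.H338.C.ZL

/-!
# P088, stage 3: the zone theorem of the leaf `zI` for the letters of the composition
-/

open Set Filter MeasureTheory
open scoped ContDiff Topology

noncomputable section

namespace Vale.Agent.P088.R2.H338.TC

open Vale.Agent.P088.LR Vale.Agent.P088.HY
open Vale.Agent.P088.R2.H961.GW Vale.Agent.P088.R2.H551.E
open Vale.Agent.P088.R2.H31.EP Vale.Agent.P088.R2.H165
open Vale.Agent.P088.R2.H205.CP
open Vale.Agent.P088.R2.H338.C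
open Vale.Agent.P088.R2.H867.Z (sq1 sqp sq1_nn sqp_nn)
open Vale.Agent.P088.R2.H455.E (Lc Mz coz ZoE RowZo SmE cTu nu)

variable {n : ℕ} {q : Cst} {d : Pk n} {z : VV n} {χ : VV n → ℝ} {L : Lc n}
  {c C c₁ cT C₂ A₀ : ℝ} {O : Set (VV n)}

/-- What the continuity of the letters needs. -/
structure CtI (q : Cst) (d : Pk n) (χ : VV n → ℝ) : Prop where
  oσ : d.sx.Ok univ fun _ => 1
  oτ : d.sy.Ok univ fun _ => 1
  sW : ContDiff ℝ ∞ (d.W q)
  sν : ∀ i, ContDiff ℝ ∞ (nuL d i)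
  E : Continuous (d.E q)
  N : Continuous (d.N q)
  m : Continuous (d.m q)
  E0 : ∀ z, 0 < d.E q z
  m0 : ∀ z, 0 ≤ d.m q z
  sN : ContDiff ℝ ∞ (Na d)
  sx : ContDiff ℝ ∞ (rx q d)
  sy : ContDiff ℝ ∞ (ry q d)
  sχ : ContDiff ℝ ∞ χ

namespace CtI

theorem dpos (h : CtI q d χ) (z : VV n) : 0 < d.E q z * (1 + d.m q z) + d.N q z ^ 2 := by
  have := h.E0 z
  have := h.m0 z
  positivity

theorem MI (h : CtI q d χ) (L : Lc n) (c : ℝ) : (Tab.MI (nu L.kz q d) c).Ct univ := by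
  have g : ∀ z ∈ (univ : Set (VV n)), d.E q z * (1 + d.m q z) + d.N q z ^ 2 ≠ 0 :=
    fun z _ => (h.dpos z).ne'
  exact ⟨continuousOn_const, continuousOn_const, continuousOn_const,
    continuousOn_const.mul h.E.continuousOn,
    continuousOn_const.mul (h.oσ.sF h.sW.contDiffOn).continuousOn,
    continuousOn_const.mul (h.oτ.sF h.sW.contDiffOn).continuousOn,
    continuousOn_const.mul (h.E.pow 2).continuousOn,
    continuousOn_const.mul (((h.N.pow 2).mul (h.E.pow 2)).continuousOn.div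
      ((h.E.mul (continuous_const.add h.m)).add (h.N.pow 2)).continuousOn g)⟩

theorem χ2 (h : CtI q d χ) : ContinuousOn (fun z => χ z ^ 2) (univ : Set (VV n)) :=
  (h.sχ.continuous.pow 2).continuousOn

theorem tl (h : CtI q d χ) (c : ℝ) : (TL c (Na d) (rx q d) (ry q d)).Ct univ :=
  TL_ct h.sN.continuous.continuousOn h.sx.continuous.continuousOn h.sy.continuous.continuousOn

theorem ct1 (h : CtI q d χ) (L : Lc n) (c cT : ℝ) :
    ((mgZI q d (nu L.kz q d) c cT).sm fun z => χ z ^ 2).Ct univ :=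
  H338.E.ct_sm h.χ2 (ct_add (qt_ct (h.MI L c)) (h.tl cT))

theorem ct3 (h : CtI q d χ) (L : Lc n) : ((Mz L q d .zI).sm fun z => χ z ^ 2).Ct univ :=
  H338.E.ct_sm h.χ2 (ct_add (h.MI L _) (h.tl _))

theorem gq' (h : CtI q d χ) : Continuous (gq χ) := c_gq h.sχ
theorem gp' (h : CtI q d χ) : Continuous (gp χ) := c_gp h.sχ

theorem s1 (h : CtI q d χ) : Continuous (sq1 χ) :=
  continuous_finsetSum _ fun i _ => ((PkOk.dx_sm h.sχ i).continuous.pow 2).add
    ((PkOk.dy_sm h.sχ i).continuous.pow 2)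

theorem sp (h : CtI q d χ) : Continuous (sqp χ) :=
  continuous_finsetSum _ fun i _ => ((PkOk.dx_sm h.sχ i).continuous.add
    (PkOk.dy_sm h.sχ i).continuous).pow 2

theorem nrs (h : CtI q d χ) (c : ℝ) {ρ : VV n → ℝ} (hρ : ContDiff ℝ ∞ ρ) :
    ContinuousOn (nr c (Na d) ρ) univ :=
  (continuous_const.mul (h.sN.continuous.mul (hρ.continuous.pow 2))).continuousOn

theorem cD (h : CtI q d χ) {σ : Sl (VV n) (Fin n)} (ok : σ.Ok univ fun _ => 1) :
    ContinuousOn (Dn σ (nuL d) χ) univ :=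
  (sDn ok (fun i => (h.sν i).contDiffOn) h.sχ.contDiffOn).continuousOn

theorem ct2 (h : CtI q d χ) (L : Lc n) (C c₁ cT : ℝ) :
    (coZI q d (nu L.kz q d) C c₁ cT χ).Ct univ := by
  refine ct_add (ct_add ?_ ?_) ?_
  · exact ⟨continuousOn_const, continuousOn_const, continuousOn_const, continuousOn_const,
      continuousOn_const, continuousOn_const,
      (continuous_const.mul (h.E.mul (h.gq'.add h.gp'))).continuousOn,
      (continuous_const.mul ((h.E.mul h.gp').add (h.gq'.add h.gp'))).continuousOn⟩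
  · exact tc_ct (continuousOn_const.mul ((h.nrs _ h.sy).mul ((h.cD h.oσ).pow 2)))
      (continuousOn_const.mul ((h.nrs _ h.sx).mul ((h.cD h.oτ).pow 2)))
  · exact cu2_ct h.oσ h.oτ h.sχ.contDiffOn (h.nrs _ h.sy) (h.nrs _ h.sx)

theorem ct4 (h : CtI q d χ) (L : Lc n) : (coL L q d χ).Ct univ := by
  have cw : ContinuousOn (fun z => L.CN q * (Na d z * (rx q d z ^ 2 + ry q d z ^ 2) *
      sq1 χ z)) (univ : Set (VV n)) :=
    (continuous_const.mul ((h.sN.continuous.mul ((h.sx.continuous.pow 2).add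
      (h.sy.continuous.pow 2))).mul h.s1)).continuousOn
  refine ct_add ?_ ⟨continuousOn_const, continuousOn_const, continuousOn_const,
    continuousOn_const, cw, cw, continuousOn_const, continuousOn_const⟩
  exact ⟨continuousOn_const, continuousOn_const, continuousOn_const, continuousOn_const,
    continuousOn_const, continuousOn_const,
    (continuous_const.mul (h.E.mul h.s1)).continuousOn,
    (continuous_const.mul ((h.E.mul h.sp).add h.s1)).continuousOn⟩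

end CtI

theorem F_nn {σ : Sl (VV n) (Fin n)} {W : VV n → ℝ} (lo : ∀ z (ξ : Fin n → ℝ), ∑ i, ξ i ^ 2 ≤
    2 * ∑ i, ∑ j, σ.s i j z * ξ i * ξ j) (z : VV n) : 0 ≤ σ.F W z := by
  have h1 : ∑ i, σ.D i W z ^ 2 ≤ 2 * σ.F W z := lo z fun i => σ.D i W z
  have h2 : 0 ≤ ∑ i, σ.D i W z ^ 2 := Finset.sum_nonneg fun _ _ => sq_nonneg _
  linarith

theorem leaf_mono {t₀ : ℝ} (K : CtI q d χ)
    (hs : RIs d.sx d.sy (d.W q) (d.E q) (d.Kf q) (gfI q d) (nuL d) C₂ A₀ O)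
    (hO : tsupport χ ⊆ O) (N0 : ∀ z, 0 ≤ Na d z) (hc1 : 0 ≤ c₁) (pcT : 0 ≤ cT) (qcT : cT ≤ t₀)
    (hC : 0 ≤ C) (g1 : L.cI q ≤ c / 4) (g2 : 2 * C ≤ L.CI q) (g3 : L.cN q ≤ cT)
    (g4 : 16 * c₁ + 512 * t₀ ≤ L.CN q)
    (key : Zone d.sx d.sy univ (fun _ => 1) 0 0 (d.W q) χ
      ((mgZI q d (nu L.kz q d) c cT).sm fun z => χ z ^ 2)
      (coZI q d (nu L.kz q d) C c₁ cT χ)) :
    Zone d.sx d.sy univ (fun _ => 1) 0 0 (d.W q) χ ((Mz L q d .zI).sm fun z => χ z ^ 2)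
      (coL L q d χ) := by
  refine zone_mono (σ := d.sx) (τ := d.sy) (U := univ) (θ := fun _ => 1) (v₁ := 0) (v₂ := 0)
    (W := d.W q) hs.oσ hs.oτ contDiffOn_const contDiffOn_const hs.sW.contDiffOn key
    (K.ct1 L c cT) (K.ct2 L C c₁ cT) (K.ct3 L) (K.ct4 L) ?_
  intro z _ a b
  have a1 := mul_le_mul_of_nonneg_left (mg_le g1 g3 (hs.E0 z).le (F_nn hs.loσ z)
    (F_nn hs.loτ z) (by
      have := K.dpos z
      show 0 ≤ d.N q z ^ 2 * d.E q z ^ 2 / (d.E q z * (1 + d.m q z) + d.N q z ^ 2)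
      positivity) (N0 z) a b) (sq_nonneg (χ z))
  have a2 := co_le (N0 z) hc1 pcT qcT g4 (fun hz => hs.ν1 z (hO hz)) hs.dσ hs.dτ
    (hs.upσ z _) (hs.upτ z _) (hs.E0 z).le hC g2 a b
  rw [Q8.dens_sm, Q8.dens_sm]
  exact add_le_add a1 a2

end Vale.Agent.P088.R2.H338.TC
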