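import Vale.Agent.P088.R2.H338.C.ZM

/-!
# P088, stage 3: the zone theorem of the leaf `zI` for the letters of the composition
-/

open Set Filter MeasureTheory
open scoped ContDiff Topology

noncomputable section

namespace Vale.Agent.P088.R2.H338.TC

open Vale.Agent.P088.LR Vale.Agent.P088.HY
open Vale.Agent.P088.R2.H961.GW Vale.Agent.P088.R2.H551.E
open Vale.Agent.P088.R2.H31.EP Vale.Agent.P088.R2.H165
open Vale.Agent.P088.R2.H205.CP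
open Vale.Agent.P088.R2.H338.C
open Vale.Agent.P088.R2.H867.Z (sq1 sqp sq1_nn sqp_nn)
open Vale.Agent.P088.R2.H455.E (Lc Mz coz ZoE RowZo SmE cTu nu)

variable {n : ℕ}

theorem leaf_fin {q : Cst} {d : Pk n} {L : Lc n} {e : Cst → ℝ} {c C c₁ t₀ C₂ A₀ A₁ : ℝ}
    (hC : 0 ≤ C) (hc1 : 0 ≤ c₁) (ht0 : 0 < t₀) (g1 : L.cI q ≤ c / 4) (g2 : 2 * C ≤ L.CI q)
    (g3 : 0 < q.c₀ → 0 < q.rT → L.cN q ≤ t₀ * (q.c₀ * q.rT) ^ 2)
    (g4 : 16 * c₁ + 512 * t₀ ≤ L.CN q) (hd : PkOk q d)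
    (hs : RIs d.sx d.sy (d.W q) (d.E q) (d.Kf q) (gfI q d) (nuL d) C₂ A₀ (OI q d))
    (LS : LitSm q d) (M : MOk n A₁ c c₁ t₀ q) (hr : H509.Rad.Ok q.e₁ rp)
    (hS : tsupport (d.ch q .zI) ⊆ OI q d)
    (key : d.Zone q (d.ch q .zI) ((mgZI q d (nu L.kz q d) c (t₀ * (q.c₀ * q.rT) ^ 2)).sm
      fun z => d.ch q .zI z ^ 2) (coZI q d (nu L.kz q d) C c₁ (t₀ * (q.c₀ * q.rT) ^ 2)
      (d.ch q .zI))) :
    d.Zone q (d.ch q .zI) ((Mz L q d .zI).sm fun z => d.ch q .zI z ^ 2) (coz L e q d .zI) := by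
  obtain ⟨c0p, c0l⟩ := M.c0
  obtain ⟨rTp, rTl⟩ := M.rT
  have X0 : 0 < q.c₀ * q.rT := by positivity
  have X1 : q.c₀ * q.rT ≤ 1 := by nlinarith
  have g3 := g3 c0p rTp
  have K : CtI q d (d.ch q .zI) :=
    { oσ := hs.oσ
      oτ := hs.oτ
      sW := hs.sW
      sν := hs.sν
      E := hs.sE.continuous
      N := hd.Φ's.continuous.comp LS.u.continuous
      m := hs.sE.continuous.mul (continuous_const.mul LS.rq.continuous)
      E0 := hs.E0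
      m0 := fun z => mul_nonneg (hs.E0 z).le (mul_nonneg (by norm_num) (LS.rq0 z))
      sN := Na_sm hd
      sx := rx_sm hd hr M.M rTp
      sy := ry_sm hd hr M.M rTp
      sχ := LS.ch _ }
  have N0 : ∀ z, 0 ≤ Na d z := fun z => by
    have : q.M₀ ≤ Na d z := hd.N_ge _
    linarith [M.M]
  exact leaf_mono (t₀ := t₀) K hs hS N0 hc1 (by positivity)
    (mul_le_of_le_one_right ht0.le (pow_le_one₀ X0.le X1)) hC g1 g2 g3 g4 key

/-- **The leaf `zI`, letters of the composition.** -/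
theorem zoE_zI (hAI : RowAI') (hCM : RowCM) (hEN : RowEN) (hCW : RowCW) (hPW : RowPW)
    (hRF : RowRF) (hTF : RowTF) : ∀ n : ℕ, 3 ≤ n → ∃ c C t₀ C₁ : ℝ, 0 < c ∧ 0 < C ∧ 0 < t₀ ∧
    0 < C₁ ∧ ∀ L : Lc n, (∀ q, L.cI q ≤ c) → (∀ q, C ≤ L.CI q) →
      (∀ q, 0 < q.c₀ → 0 < q.rT → L.cN q ≤ t₀ * (q.c₀ * q.rT) ^ 2) → (∀ q, C₁ ≤ L.CN q) →
      ZoE L .zI := by
  intro n hn
  obtain ⟨c, C, c₁, t₀, hc, hC, hc1, ht0, H⟩ := zI_leaf hAI hCM hEN hCW hPW hRF hTF n hn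
  obtain ⟨_, _, _, _, HZ⟩ := zI_T hAI hCM hEN hCW hPW hRF n hn
  refine ⟨c / 4, 2 * C, t₀, 16 * c₁ + 512 * t₀, by positivity, by positivity, ht0,
    by positivity, fun L g1 g2 g3 g4 => ⟨fun _ => 1, ⟨fun _ => rfl, fun _ => one_pos⟩,
    fun e _ _ => ?_⟩⟩
  have E1 := ((H.and HZ).and ((EvC.litSm n).and EvC.rad)).and
    ((ev_MOk n (A₀ := 1) (c₁ := c₁) (t₀ := t₀) hc).and (supp_zI n))
  have G : EvC fun q => ∀ d : Pk n, PkOk q d → d.Zone q (d.ch q .zI)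
      ((Mz L q d .zI).sm fun z => d.ch q .zI z ^ 2) (coz L e q d .zI) := by
    refine E1.mono fun q hh d hd => ?_
    have hS := hh.2.2 d hd
    have M := hh.2.1
    have hr := hh.1.2.2
    have LS := hh.1.2.1 d hd
    have hs := (hh.1.1.2 d hd).1
    have key := hh.1.1.1 d hd _ (⟨rfl, rfl, rfl, rfl, rfl⟩ : NuOk q d (nu L.kz q d))
    exact leaf_fin hC.le hc1.le ht0 (g1 q) (g2 q) (g3 q) (g4 q) hd hs LS M hr hS key
  exact G

end Vale.Agent.P088.R2.H338.TC
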