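import Vale.Agent.P088.R2.H338.C.ZN
import Vale.Agent.P088.R2.H558.G.Shape

/-!
# P088, stage 3: the row of the leaf `zI`
-/

open Set Filter MeasureTheory
open scoped ContDiff Topology

noncomputable section

namespace Vale.Agent.P088.R2.H338.TC

open Vale.Agent.P088.R2.H31.EP
open Vale.Agent.P088.R2.H205.CP
open Vale.Agent.P088.R2.H455.E (Lc ZoE)
open Vale.Agent.P088.R2.H558.G (ZRI)

variable {n : ℕ}

/-- The constant of the tube letters. -/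
def cNz (t₀ : ℝ) (q : Cst) : ℝ := t₀ * (if 0 < q.c₀ ∧ 0 < q.rT then (q.c₀ * q.rT) ^ 2 else 1)

theorem cNz_pos {t₀ : ℝ} (h : 0 < t₀) (q : Cst) : 0 < cNz t₀ q := by
  unfold cNz
  split_ifs with h1
  · have := h1.1
    have := h1.2
    positivity
  · positivity

theorem cNz_nb (t₀ : ℝ) : NB_c' (cNz t₀) := fun _ => rfl

theorem cNz_le (t₀ : ℝ) (q : Cst) (h1 : 0 < q.c₀) (h2 : 0 < q.rT) :
    cNz t₀ q ≤ t₀ * (q.c₀ * q.rT) ^ 2 := by
  unfold cNz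
  rw [if_pos ⟨h1, h2⟩]

/-- **The row of the leaf `zI`** from the rows of region I. -/
theorem zRI_of (hn : 3 ≤ n) (hAI : RowAI') (hCM : RowCM) (hEN : RowEN) (hCW : RowCW)
    (hPW : RowPW) (hRF : RowRF) (hTF : RowTF) : ZRI n := by
  obtain ⟨c, C, t₀, C₁, hc, hC, ht, hC1, H⟩ := zoE_zI hAI hCM hEN hCW hPW hRF hTF n hn
  refine ⟨fun _ => c, fun _ => C, cNz t₀, fun _ => C₁, ⟨fun _ => hc, fun _ => rfl⟩,
    ⟨fun _ => hC, fun _ => rfl⟩, ⟨cNz_pos ht, cNz_nb t₀⟩, ⟨fun _ => hC1, fun _ => rfl⟩, ?_⟩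
  intro L e1 e2 e3 e4
  refine H L (fun q => ?_) (fun q => ?_) (fun q h1 h2 => ?_) fun q => ?_
  · rw [e1]
  · rw [e2]
  · rw [e3]
    exact cNz_le t₀ q h1 h2
  · rw [e4]

end Vale.Agent.P088.R2.H338.TC
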