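import Vale.Agent.P088.R2.H338.C.ZO
import Vale.Agent.P088.R2.H960.C.AI4
import Vale.Agent.P088.R2.H321.C.CM
import Vale.Agent.P088.R2.H935.C.EN
import Vale.Agent.P088.R2.H960.X.Cw
import Vale.Agent.P088.R2.H341.C.RF
import Vale.Agent.P088.R2.H680.C.TubeG

/-!
# P088, stage 3: the row of the leaf `zI` from the pointwise row `RowPW`
-/

noncomputable section

namespace Vale.Agent.P088.R2.H338.TC

open Vale.Agent.P088.R2

/-- **The row of the leaf `zI`.** -/
theorem zRI {n : ℕ} (hn : 3 ≤ n) (hPW : H205.CP.RowPW) : H558.G.ZRI n :=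
  zRI_of hn H960.C.rowAI' H321.CM.rowCM H935.EN.rowEN H960.X.rowCW hPW H341.RF.rowRF
    H680.C.rowTF

end Vale.Agent.P088.R2.H338.TC
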